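import Mathlib
import Vale.Agent.Lib.P199.Cyclic

namespace Vale.Agent.Results.P199.AutCenter

universe u

theorem result (F D : Type u) [Field F] [DivisionRing D] [Algebra F D]
    [Algebra.IsCentral F D] [Algebra.IsAlgebraic F D]
    (hBr : ∀ (B : Type u) [DivisionRing B] [Algebra F B] [FiniteDimensional F B],
      ∀ x y : B, x * y = y * x)
    (hAut : ∀ (K : Type u) [Field K] [Algebra F K] [FiniteDimensional F K]
      [Algebra.IsSeparable F K], 1 < Module.finrank F K →
      ∃ σ : K ≃ₐ[F] K, σ ≠ AlgEquiv.refl) :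
    Function.Surjective (algebraMap F D) ∧
      ∀ S : Finset D, FiniteDimensional F (Algebra.adjoin F (S : Set D)) := by
  have hsurj := Vale.Agent.Lib.P199.cyclic_center F D hBr hAut
  refine ⟨hsurj, fun S => ?_⟩
  have hbot : Algebra.adjoin F (S : Set D) = ⊥ := by
    apply le_antisymm _ bot_le
    intro x _
    exact Algebra.mem_bot.mpr (hsurj x)
  rw [hbot]
  infer_instance

end Vale.Agent.Results.P199.AutCenter
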