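import Mathlib
import Vale.Agent.Lib.P199.Affine

namespace Vale.Agent.Results.P199.CentralSubfield

universe u

theorem result (k M D : Type u) [Field k] [Uncountable k] [Field M] [Algebra k M]
    [FiniteDimensional k M] [DivisionRing D] [Algebra k D]
    (hBr : ∀ (B : Type u) [DivisionRing B] [Algebra M B] [FiniteDimensional M B],
      ∀ x y : B, x * y = y * x) :
    (Algebra.IsAlgebraic k D →
      FiniteDimensional (Subring.center D) D ∧
      Module.finrank (Subring.center D) D ≤ (Module.finrank k M) ^ 2 ∧
      ∀ S : Finset D, FiniteDimensional k (Algebra.adjoin k (S : Set D))) ∧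
    (Algebra.FiniteType k D → FiniteDimensional k D) :=
  ⟨fun _ => Vale.Agent.Lib.P199.central_subfield k D M hBr,
    fun _ => Vale.Agent.Lib.P199.affine_fd k D M hBr⟩

end Vale.Agent.Results.P199.CentralSubfield
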