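import Mathlib
import Vale.Agent.Lib.P199.Descent

namespace Vale.Agent.Results.P199.FiniteSplitting

universe u

theorem result (F M D : Type u) [Field F] [Uncountable F] [Field M] [Algebra F M]
    [FiniteDimensional F M] [DivisionRing D] [Algebra F D] [Algebra.IsCentral F D]
    [Algebra.IsAlgebraic F D]
    (hBr : ∀ (B : Type u) [DivisionRing B] [Algebra M B] [FiniteDimensional M B],
      ∀ x y : B, x * y = y * x) :
    FiniteDimensional F D ∧
      ∃ n : ℕ, n ∣ Module.finrank F M ∧ Module.finrank F D = n ^ 2 :=
  Vale.Agent.Lib.P199.virtually_trivial F M D hBr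

end Vale.Agent.Results.P199.FiniteSplitting
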